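import Mathlib.GroupTheory.Perm.Cycle.Basic
import Mathlib.Logic.Equiv.Option
import Mathlib.Data.ZMod.Basic
import Mathlib.Data.Fintype.Card
import Mathlib.Algebra.BigOperators.Fin

/-! Plane Eulerian triangulations as hypermaps.

`B` = black triangles, `W` = white triangles, `V` = vertices of the triangulation `T` (faces of the
cubic bipartite map `G` with black vertices `B` and white vertices `W`). The edge of colour `i` at
the black triangle `b` joins the vertices `c (i+1) b` and `c (i+2) b`, and the white triangle on its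
other side is `e i b`. -/

namespace Vale.Agent.P039.Bn

theorem f11 (j : Fin 3) : j + 1 + 1 = j + 2 := by revert j; decide
theorem f12 (j : Fin 3) : j + 1 + 2 = j := by revert j; decide
theorem f21 (j : Fin 3) : j + 2 + 1 = j := by revert j; decide
theorem f22 (j : Fin 3) : j + 2 + 2 = j + 1 := by revert j; decide
theorem fcase (i j : Fin 3) : i = j ∨ i = j + 1 ∨ i = j + 2 := by revert i j; decide
theorem fne1 (j : Fin 3) : j + 1 ≠ j := by revert j; decide
theorem fne2 (j : Fin 3) : j + 2 ≠ j := by revert j; decide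
theorem fne12 (j : Fin 3) : j + 1 ≠ j + 2 := by revert j; decide
theorem fne21 (j : Fin 3) : j + 2 ≠ j + 1 := by revert j; decide

theorem fthird (i j : Fin 3) : ∃ k : Fin 3, k ≠ i ∧ k ≠ j := by revert i j; decide

/-- A 3-coloured Eulerian triangulation of a closed oriented surface: `B` black triangles,
`W` white triangles, `V` vertices. -/
structure PMap (B W V : Type) where
  e : Fin 3 → B ≃ W
  c : Fin 3 → B → V
  step : ∀ j b b', e (j + 1) b' = e (j + 2) b → c j b' = c j b
  exact : ∀ j b b', c j b = c j b' →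
    Relation.EqvGen (fun x y => e (j + 1) y = e (j + 2) x) b b'
  cls : ∀ j j' b b', c j b = c j' b' → j = j'
  surj : ∀ v, ∃ j b, c j b = v

variable {B W V B' W' V' : Type}

namespace PMap

variable (M : PMap B W V)

/-- the next black triangle around the vertex of class `j` -/
def rho (j : Fin 3) : Equiv.Perm B := (M.e (j + 2)).trans (M.e (j + 1)).symm

theorem rho_def (j : Fin 3) (b : B) : M.rho j b = (M.e (j + 1)).symm (M.e (j + 2) b) := rfl

theorem e_rho (j : Fin 3) (b : B) : M.e (j + 1) (M.rho j b) = M.e (j + 2) b := by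
  simp [rho]

theorem c_rho (j : Fin 3) (b : B) : M.c j (M.rho j b) = M.c j b := M.step _ _ _ (M.e_rho j b)

theorem c_rho_pow (j : Fin 3) (n : ℕ) (b : B) : M.c j ((M.rho j ^ n) b) = M.c j b := by
  induction n with
  | zero => rfl
  | succ n ih => rw [pow_succ', Equiv.Perm.mul_apply, M.c_rho, ih]

theorem c_rho_symm (j : Fin 3) (b : B) : M.c j ((M.rho j).symm b) = M.c j b := by
  conv_rhs => rw [← (M.rho j).apply_symm_apply b]
  rw [M.c_rho]

/-- the vertex of class `j` of the white triangle `w` -/
def cw (j : Fin 3) (w : W) : V := M.c j ((M.e (j + 1)).symm w)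

theorem cw_e1 (j : Fin 3) (b : B) : M.cw j (M.e (j + 1) b) = M.c j b := by
  simp [cw]

theorem cw_e2 (j : Fin 3) (b : B) : M.cw j (M.e (j + 2) b) = M.c j b := M.c_rho j b

theorem cw_e (j i : Fin 3) (h : i ≠ j) (b : B) : M.cw j (M.e i b) = M.c j b := by
  rcases fcase i j with rfl | rfl | rfl
  · exact absurd rfl h
  · exact M.cw_e1 _ _
  · exact M.cw_e2 _ _

theorem cw_symm2 (j : Fin 3) (w : W) : M.c j ((M.e (j + 2)).symm w) = M.cw j w := by
  conv_rhs => rw [← (M.e (j + 2)).apply_symm_apply w]
  rw [M.cw_e2]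

theorem cw_symm (j i : Fin 3) (h : i ≠ j) (w : W) : M.c j ((M.e i).symm w) = M.cw j w := by
  conv_rhs => rw [← (M.e i).apply_symm_apply w]
  rw [M.cw_e _ _ h]

theorem c_of_eqvGen {j : Fin 3} {x y : B}
    (h : Relation.EqvGen (fun x y => M.e (j + 1) y = M.e (j + 2) x) x y) : M.c j x = M.c j y := by
  induction h with
  | rel x y h => exact (M.step _ _ _ h).symm
  | refl x => rfl
  | symm x y _ ih => exact ih.symm
  | trans x y z _ _ ih1 ih2 => exact ih1.trans ih2

theorem sameCycle_of_eqvGen {j : Fin 3} {x y : B}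
    (h : Relation.EqvGen (fun x y => M.e (j + 1) y = M.e (j + 2) x) x y) :
    (M.rho j).SameCycle x y := by
  induction h with
  | rel x y hxy =>
    have : y = M.rho j x := by rw [rho_def, ← hxy, Equiv.symm_apply_apply]
    rw [this]
    exact Equiv.Perm.sameCycle_apply_right.2 (Equiv.Perm.SameCycle.refl _ _)
  | refl x => exact Equiv.Perm.SameCycle.refl _ _
  | symm x y _ ih => exact ih.symm
  | trans x y z _ _ ih1 ih2 => exact ih1.trans ih2

/-- two black triangles are at the same vertex of class `j` iff one gets from one to the other by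
going around the vertex -/
theorem same_iff [Finite B] (j : Fin 3) (b b' : B) :
    M.c j b = M.c j b' ↔ ∃ n : ℕ, (M.rho j ^ n) b = b' := by
  constructor
  · intro h
    obtain ⟨n, _, hn⟩ := (M.sameCycle_of_eqvGen (M.exact j b b' h)).exists_pow_eq'
    exact ⟨n, hn⟩
  · rintro ⟨n, rfl⟩
    rw [M.c_rho_pow]

theorem eqvGen_rho_pow (j : Fin 3) (n : ℕ) (b : B) :
    Relation.EqvGen (fun x y => M.e (j + 1) y = M.e (j + 2) x) b ((M.rho j ^ n) b) := by
  induction n with
  | zero => exact Relation.EqvGen.refl _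
  | succ n ih =>
    refine ih.trans _ _ _ (Relation.EqvGen.rel _ _ ?_)
    rw [pow_succ', Equiv.Perm.mul_apply, M.e_rho]

/-- Every two vertices of `T` are joined by at most one edge. -/
def Simple : Prop :=
  ∀ i b b', M.c (i + 1) b = M.c (i + 1) b' → M.c (i + 2) b = M.c (i + 2) b' → b = b'

/-- `T` is connected. -/
def Conn : Prop := ∀ b b', Relation.EqvGen (fun x y => ∃ j, M.c j x = M.c j y) b b'

/-- `T` is a connected triangulation of the sphere. -/
structure Sph [Fintype B] [Fintype V] : Prop where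
  conn : M.Conn
  card : Fintype.card V = Fintype.card B + 2

/-- Adjacent vertices. -/
def Adj (x y : V) : Prop := ∃ i j b, i ≠ j ∧ M.c i b = x ∧ M.c j b = y

theorem Adj.symm {M : PMap B W V} {x y : V} (h : M.Adj x y) : M.Adj y x := by
  obtain ⟨i, j, b, hij, h1, h2⟩ := h
  exact ⟨j, i, b, hij.symm, h2, h1⟩

/-- The vertex `x` has class `i`. -/
def Cl (i : Fin 3) (x : V) : Prop := ∃ b, M.c i b = x

/-- The edge of colour `i` at `b` separates vertices on different sides. -/
def Used (s : V → Bool) (i : Fin 3) (b : B) : Prop := s (M.c (i + 1) b) ≠ s (M.c (i + 2) b)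

/-- `s` describes the two sides of a Hamiltonian cycle. -/
structure Sol (s : V → Bool) : Prop where
  vb : ∀ b, ∃ j k, s (M.c j b) ≠ s (M.c k b)
  vw : ∀ w, ∃ j k, s (M.cw j w) ≠ s (M.cw k w)
  conn : ∀ x y : B ⊕ W, Relation.EqvGen
    (fun x y => ∃ i b, M.Used s i b ∧ x = Sum.inl b ∧ y = Sum.inr (M.e i b)) x y

/-- All neighbours of `x` of class `C` are on the other side (`x → C`). -/
def Arr (s : V → Bool) (x : V) (C : Fin 3) : Prop :=
  ∀ j b, M.c j b = x → j ≠ C → s (M.c C b) ≠ s x

/-- The statement P3S for the root `(u,v,w)` with classes `U,V,W`: `u → V`, `v → U`, `w → U`, with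
`v,w` on the same side. -/
def P3S (u v w : V) (U V' : Fin 3) : Prop :=
  ∃ s, M.Sol s ∧ M.Arr s u V' ∧ M.Arr s v U ∧ M.Arr s w U ∧ s u ≠ s v ∧ s w = s v

/-- `(u,v,w)` is a root with classes `U, V', W'`. -/
structure Root (u v w : V) (U V' W' : Fin 3) : Prop where
  uv : U ≠ V'
  vw : V' ≠ W'
  uw : U ≠ W'
  b1 : ∃ b, M.c U b = u ∧ M.c V' b = v
  b2 : ∃ b, M.c V' b = v ∧ M.c W' b = w

end PMap

end Vale.Agent.P039.Bn
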