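import Vale.Agent.P039.Bn.Defs

/-! The elementary move: removing an edge of the map (Walkup transform).

`Fold M M' i b f g q`: the black triangle `b` and the white triangle `w = e i b` (which share the
edge of colour `i`) are removed, and the vertices of class `i` of `b` and `w` are identified. -/

namespace Vale.Agent.P039.Bn

variable {B W V B' W' V' : Type}

namespace PMap

/-- `M'` arises from `M` by removing the black triangle `b` and the white triangle `e i b` and
identifying their vertices of class `i`. -/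
structure Fold (M : PMap B W V) (M' : PMap B' W' V') (i : Fin 3) (b : B) (f : B' → B) (g : W' → W)
    (q : V → V') : Prop where
  fi : Function.Injective f
  gi : Function.Injective g
  fr : ∀ x, (∃ a, f a = x) ↔ x ≠ b
  gr : ∀ w, (∃ a, g a = w) ↔ w ≠ M.e i b
  same : ∀ j a, M.e j (f a) ≠ M.e i b → g (M'.e j a) = M.e j (f a)
  out : ∀ j a, M.e j (f a) = M.e i b → g (M'.e j a) = M.e j b
  qc : ∀ j a, M'.c j a = q (M.c j (f a))
  qs : Function.Surjective q
  qa : q (M.cw i (M.e i b)) = q (M.c i b)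
  qi : ∀ v v', q v = q v' → v = v' ∨ ((v = M.c i b ∨ v = M.cw i (M.e i b)) ∧
    (v' = M.c i b ∨ v' = M.cw i (M.e i b)))

section exists_web

variable [DecidableEq B] [DecidableEq W]

/-- the new colour `j` edges -/
def foldE (e : Fin 3 → B ≃ W) (i : Fin 3) (b : B) (j : Fin 3) :
    {x // x ≠ b} ≃ {w // w ≠ e i b} :=
  Equiv.removeNone (((Equiv.optionSubtypeNe b).trans (e j)).trans
    (Equiv.optionSubtypeNe (e i b)).symm)

theorem foldE_same (e : Fin 3 → B ≃ W) (i : Fin 3) (b : B) (j : Fin 3) (x : {x // x ≠ b})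
    (h : e j x ≠ e i b) : (foldE e i b j x : W) = e j x := by
  have h1 := Equiv.removeNone_some (((Equiv.optionSubtypeNe b).trans (e j)).trans
    (Equiv.optionSubtypeNe (e i b)).symm) (x := x) ⟨⟨e j x, h⟩, by
      simp [Equiv.optionSubtypeNe_symm_of_ne h]⟩
  have h2 := congrArg (Equiv.optionSubtypeNe (e i b)) h1
  rw [Equiv.trans_apply, Equiv.apply_symm_apply, Equiv.optionSubtypeNe_some, Equiv.trans_apply,
    Equiv.optionSubtypeNe_some] at h2
  exact h2

theorem foldE_out (e : Fin 3 → B ≃ W) (i : Fin 3) (b : B) (j : Fin 3) (x : {x // x ≠ b})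
    (h : e j x = e i b) : (foldE e i b j x : W) = e j b := by
  have h1 := Equiv.removeNone_none (((Equiv.optionSubtypeNe b).trans (e j)).trans
    (Equiv.optionSubtypeNe (e i b)).symm) (x := x) (by
      simp only [Equiv.trans_apply, Equiv.optionSubtypeNe_some, h]
      exact Equiv.optionSubtypeNe_symm_self _)
  have h2 := congrArg (Equiv.optionSubtypeNe (e i b)) h1
  rw [Equiv.trans_apply, Equiv.apply_symm_apply, Equiv.optionSubtypeNe_some, Equiv.trans_apply,
    Equiv.optionSubtypeNe_none] at h2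
  exact h2

end exists_web

section basic

variable (M : PMap B W V) {i : Fin 3} {b : B}

theorem ne_of_merge (h : M.c i b ≠ M.cw i (M.e i b)) {j : Fin 3} (hj : j ≠ i) :
    M.e j b ≠ M.e i b := by
  intro h1
  apply h
  rw [← h1, M.cw_e i j hj]

theorem symm_ne_of_merge (h : M.c i b ≠ M.cw i (M.e i b)) {j : Fin 3} (hj : j ≠ i) :
    (M.e j).symm (M.e i b) ≠ b := fun h1 =>
  M.ne_of_merge h hj ((Equiv.symm_apply_eq _).1 h1).symm

/-- going once around the vertex of class `j` without the step out of `z` -/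
theorem arc [Finite B] (j : Fin 3) (x z : B) (h : M.c j x = M.c j z) {r : B → B → Prop}
    (hr : ∀ y, y ≠ z → M.c j y = M.c j z → Relation.EqvGen r y (M.rho j y)) :
    Relation.EqvGen r x z := by
  classical
  have hex : ∃ n : ℕ, (M.rho j ^ n) x = z := (M.same_iff j x z).1 h
  have hn := Nat.find_spec hex
  have hmin := fun m (hm : m < Nat.find hex) => Nat.find_min hex hm
  generalize Nat.find hex = n at hn hmin
  have key : ∀ m, m ≤ n → Relation.EqvGen r x ((M.rho j ^ m) x) := by
    intro m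
    induction m with
    | zero => intro _; exact Relation.EqvGen.refl _
    | succ m ih =>
      intro hm
      refine (ih (by omega)).trans _ _ _ ?_
      rw [pow_succ', Equiv.Perm.mul_apply]
      refine hr _ (hmin m (by omega)) ?_
      rw [M.c_rho_pow, h]
  rw [← hn]
  exact key n le_rfl

end basic

section construct

variable (M : PMap B W V) (i : Fin 3) (b : B) [DecidableEq V]

/-- identify the two vertices -/
def foldQ (h : M.c i b ≠ M.cw i (M.e i b)) (v : V) : {v : V // v ≠ M.cw i (M.e i b)} :=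
  if hv : v = M.cw i (M.e i b) then ⟨M.c i b, h⟩ else ⟨v, hv⟩

theorem foldQ_a (h : M.c i b ≠ M.cw i (M.e i b)) :
    M.foldQ i b h (M.cw i (M.e i b)) = M.foldQ i b h (M.c i b) := by
  apply Subtype.ext
  rw [foldQ, dif_pos rfl, foldQ, dif_neg h]

theorem foldQ_i (h : M.c i b ≠ M.cw i (M.e i b)) (v v' : V)
    (hv : M.foldQ i b h v = M.foldQ i b h v') : v = v' ∨
    ((v = M.c i b ∨ v = M.cw i (M.e i b)) ∧ (v' = M.c i b ∨ v' = M.cw i (M.e i b))) := by
  by_cases h1 : v = M.cw i (M.e i b) <;> by_cases h2 : v' = M.cw i (M.e i b)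
  · exact Or.inl (h1.trans h2.symm)
  · rw [foldQ, dif_pos h1, foldQ, dif_neg h2] at hv
    exact Or.inr ⟨Or.inr h1, Or.inl (congrArg Subtype.val hv).symm⟩
  · rw [foldQ, dif_neg h1, foldQ, dif_pos h2] at hv
    exact Or.inr ⟨Or.inl (congrArg Subtype.val hv), Or.inr h2⟩
  · rw [foldQ, dif_neg h1, foldQ, dif_neg h2] at hv
    exact Or.inl (congrArg Subtype.val hv)

variable [DecidableEq B] [DecidableEq W]

theorem fold_cw (h : M.c i b ≠ M.cw i (M.e i b)) (j k : Fin 3) (hk : k ≠ j) (x : {x // x ≠ b}) :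
    M.foldQ i b h (M.cw j (foldE M.e i b k x)) = M.foldQ i b h (M.c j x) := by
  by_cases h1 : M.e k x = M.e i b
  · rw [foldE_out _ _ _ _ _ h1, M.cw_e j k hk, ← M.cw_e j k hk x, h1]
    by_cases hj : j = i
    · subst hj; rw [M.foldQ_a]
    · rw [M.cw_e j i (Ne.symm hj)]
  · rw [foldE_same _ _ _ _ _ h1, M.cw_e j k hk]

/-- a step around a vertex in the new map -/
def FStep (j : Fin 3) (x y : {x // x ≠ b}) : Prop :=
  foldE M.e i b (j + 1) y = foldE M.e i b (j + 2) x

omit [DecidableEq V] in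
theorem fstep_same {j : Fin 3} {x y : {x // x ≠ b}} (h : M.e (j + 1) y = M.e (j + 2) x)
    (hw : M.e (j + 2) x ≠ M.e i b) : M.FStep i b j x y := by
  apply Subtype.ext
  rw [foldE_same _ _ _ _ _ hw, foldE_same _ _ _ _ _ (by rw [h]; exact hw), h]

omit [DecidableEq V] in
theorem fold_exact_aux {j : Fin 3} {φ : B → {x // x ≠ b}}
    (hstep : ∀ u v, M.e (j + 1) v = M.e (j + 2) u →
      Relation.EqvGen (M.FStep i b j) (φ u) (φ v)) {x y : B} (h : M.c j x = M.c j y) :
    Relation.EqvGen (M.FStep i b j) (φ x) (φ y) := by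
  have := M.exact j x y h
  induction this with
  | rel u v huv => exact hstep u v huv
  | refl u => exact Relation.EqvGen.refl _
  | symm u v huv ih => exact (ih (M.c_of_eqvGen huv)).symm
  | trans u v w huv hvw ih1 ih2 =>
    exact (ih1 (M.c_of_eqvGen huv)).trans _ _ _ (ih2 (M.c_of_eqvGen hvw))

theorem fold_exact_ne (h : M.c i b ≠ M.cw i (M.e i b)) {j : Fin 3} (hj : j ≠ i)
    {x y : {x // x ≠ b}} (hxy : M.c j x = M.c j y) :
    Relation.EqvGen (M.FStep i b j) x y := by
  have hβ : M.rho j b ≠ b := by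
    intro h1
    have h2 := M.e_rho j b
    rw [h1] at h2
    rcases fcase i j with rfl | rfl | rfl
    · exact hj rfl
    · exact M.ne_of_merge h (j := j + 2) (fne21 j) h2.symm
    · exact M.ne_of_merge h (j := j + 1) (fne12 j) h2
  set φ : B → {x // x ≠ b} := fun x => if hx : x = b then ⟨M.rho j b, hβ⟩ else ⟨x, hx⟩ with hφd
  have hφ : ∀ x : {x // x ≠ b}, φ x = x := fun x => by simp [hφd, x.2]
  have hφb : φ b = ⟨M.rho j b, hβ⟩ := by simp [hφd]
  have key := M.fold_exact_aux i b (j := j) (φ := φ) ?_ hxy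
  · rwa [hφ, hφ] at key
  intro u v huv
  by_cases hu : u = b
  · subst hu
    have : v = M.rho j u := by rw [rho_def, ← huv, Equiv.symm_apply_apply]
    rw [hφb, this]
    have := hφ ⟨_, hβ⟩
    rw [this]
    exact Relation.EqvGen.refl _
  · have hφu : φ u = ⟨u, hu⟩ := hφ ⟨u, hu⟩
    rw [hφu]
    by_cases hv : v = b
    · subst hv
      rw [hφb]
      refine Relation.EqvGen.rel _ _ ?_
      apply Subtype.ext
      rcases fcase i j with rfl | rfl | rfl
      · exact absurd rfl hj
      · -- `i = j + 1`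
        rw [foldE_out _ _ _ (j + 2) ⟨u, hu⟩ huv.symm, foldE_same _ _ _ (j + 1) ⟨_, hβ⟩
          (fun h3 => hβ ((M.e (j + 1)).injective h3))]
        exact M.e_rho j v
      · -- `i = j + 2`
        rw [foldE_same _ _ _ (j + 2) ⟨u, hu⟩ (fun h3 => hu ((M.e (j + 2)).injective h3)),
          foldE_out _ _ _ (j + 1) ⟨_, hβ⟩ (M.e_rho j v)]
        exact huv
    · have hφv : φ v = ⟨v, hv⟩ := hφ ⟨v, hv⟩
      rw [hφv]
      refine Relation.EqvGen.rel _ _ (M.fstep_same i b huv ?_)
      rcases fcase i j with rfl | rfl | rfl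
      · exact absurd rfl hj
      · intro h3
        exact hv ((M.e (j + 1)).injective (huv.trans h3))
      · intro h3
        exact hu ((M.e (j + 2)).injective h3)

theorem fold_arc [Finite B] (h : M.c i b ≠ M.cw i (M.e i b)) :
    Relation.EqvGen (M.FStep i b i)
      ⟨(M.e (i + 1)).symm (M.e i b), M.symm_ne_of_merge h (fne1 i)⟩
      ⟨(M.e (i + 2)).symm (M.e i b), M.symm_ne_of_merge h (fne2 i)⟩ := by
  set w := M.e i b with hw
  have n1 : (M.e (i + 1)).symm w ≠ b := M.symm_ne_of_merge h (fne1 i)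
  have n2 : (M.e (i + 2)).symm w ≠ b := M.symm_ne_of_merge h (fne2 i)
  set r : B → B → Prop := fun x y => ∃ (hx : x ≠ b) (hy : y ≠ b), M.FStep i b i ⟨x, hx⟩ ⟨y, hy⟩
    with hr
  have conv : ∀ x y, Relation.EqvGen r x y → x = y ∨ ∃ (hx : x ≠ b) (hy : y ≠ b),
      Relation.EqvGen (M.FStep i b i) ⟨x, hx⟩ ⟨y, hy⟩ := by
    intro x y hxy
    induction hxy with
    | rel x y hxy =>
      obtain ⟨hx, hy, h3⟩ := hxy
      exact Or.inr ⟨hx, hy, Relation.EqvGen.rel _ _ h3⟩
    | refl x => exact Or.inl rfl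
    | symm x y _ ih =>
      rcases ih with rfl | ⟨hx, hy, h3⟩
      · exact Or.inl rfl
      · exact Or.inr ⟨hy, hx, h3.symm⟩
    | trans x y z _ _ ih1 ih2 =>
      rcases ih1 with rfl | ⟨hx, hy, h3⟩
      · exact ih2
      · rcases ih2 with rfl | ⟨hy', hz, h4⟩
        · exact Or.inr ⟨hx, hy, h3⟩
        · exact Or.inr ⟨hx, hz, h3.trans _ _ _ h4⟩
  have hc1 : M.c i ((M.e (i + 1)).symm w) = M.cw i w := M.cw_symm i (i + 1) (fne1 i) w
  have hc2 : M.c i ((M.e (i + 2)).symm w) = M.cw i w := M.cw_symm i (i + 2) (fne2 i) w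
  have key := M.arc i ((M.e (i + 1)).symm w) ((M.e (i + 2)).symm w) (hc1.trans hc2.symm)
    (r := r) ?_
  · rcases conv _ _ key with h3 | ⟨hx, hy, h3⟩
    · have : (⟨(M.e (i + 1)).symm w, n1⟩ : {x // x ≠ b}) = ⟨(M.e (i + 2)).symm w, n2⟩ :=
        Subtype.ext h3
      rw [this]
      exact Relation.EqvGen.refl _
    · exact h3
  · intro y hy hcy
    rw [hc2] at hcy
    have hyb : y ≠ b := by rintro rfl; exact h hcy
    have hyb' : M.rho i y ≠ b := by
      intro h3
      apply h
      rw [← h3, M.c_rho, hcy]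
    refine Relation.EqvGen.rel _ _ ⟨hyb, hyb', ?_⟩
    refine M.fstep_same i b (M.e_rho i y) ?_
    intro h3
    apply hy
    rw [← hw] at h3
    rw [← h3, Equiv.symm_apply_apply]

theorem fold_exact_eq [Finite B] (h : M.c i b ≠ M.cw i (M.e i b))
    {x y : {x // x ≠ b}} (hxy : M.foldQ i b h (M.c i x) = M.foldQ i b h (M.c i y)) :
    Relation.EqvGen (M.FStep i b i) x y := by
  set w := M.e i b with hw
  have n1 : (M.e (i + 1)).symm w ≠ b := M.symm_ne_of_merge h (fne1 i)
  have n2 : (M.e (i + 2)).symm w ≠ b := M.symm_ne_of_merge h (fne2 i)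
  have hc1 : M.c i ((M.e (i + 1)).symm w) = M.cw i w := M.cw_symm i (i + 1) (fne1 i) w
  have harc : Relation.EqvGen (M.FStep i b i) ⟨(M.e (i + 1)).symm w, n1⟩
    ⟨(M.e (i + 2)).symm w, n2⟩ := M.fold_arc i b h
  set φ : B → {x // x ≠ b} := fun x => if hx : x = b then ⟨(M.e (i + 1)).symm w, n1⟩ else ⟨x, hx⟩
    with hφd
  have hφ : ∀ x : {x // x ≠ b}, φ x = x := fun x => by simp [hφd, x.2]
  have hφb : φ b = ⟨(M.e (i + 1)).symm w, n1⟩ := by simp [hφd]
  have hstep : ∀ u v, M.e (i + 1) v = M.e (i + 2) u →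
      Relation.EqvGen (M.FStep i b i) (φ u) (φ v) := by
    intro u v huv
    by_cases hu : u = b
    · by_cases hv : v = b
      · rw [hu, hv]; exact Relation.EqvGen.refl _
      · rw [hu, hφb, hφ ⟨v, hv⟩]
        refine harc.trans _ _ _ (Relation.EqvGen.rel _ _ ?_)
        apply Subtype.ext
        rw [foldE_out _ _ _ (i + 2) ⟨_, n2⟩ (by simp [hw]), foldE_same _ _ _ (i + 1) ⟨v, hv⟩
          (by
            show M.e (i + 1) v ≠ M.e i b
            rw [huv, hu]
            exact M.ne_of_merge h (fne2 i))]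
        show M.e (i + 1) v = M.e (i + 2) b
        rw [huv, hu]
    · by_cases hv : v = b
      · rw [hv, hφb, hφ ⟨u, hu⟩]
        refine Relation.EqvGen.rel _ _ ?_
        apply Subtype.ext
        rw [foldE_out _ _ _ (i + 1) ⟨_, n1⟩ (by simp [hw]), foldE_same _ _ _ (i + 2) ⟨u, hu⟩
          (by
            show M.e (i + 2) u ≠ M.e i b
            rw [← huv, hv]
            exact M.ne_of_merge h (fne1 i))]
        show M.e (i + 1) b = M.e (i + 2) u
        rw [← huv, hv]
      · rw [hφ ⟨u, hu⟩, hφ ⟨v, hv⟩]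
        by_cases h3 : M.e (i + 2) u = w
        · have hu' : (⟨u, hu⟩ : {x // x ≠ b}) = ⟨(M.e (i + 2)).symm w, n2⟩ := by
            apply Subtype.ext
            show u = (M.e (i + 2)).symm w
            rw [← h3, Equiv.symm_apply_apply]
          have hv' : (⟨v, hv⟩ : {x // x ≠ b}) = ⟨(M.e (i + 1)).symm w, n1⟩ := by
            apply Subtype.ext
            show v = (M.e (i + 1)).symm w
            rw [← h3, ← huv, Equiv.symm_apply_apply]
          rw [hu', hv']
          exact harc.symm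
        · exact Relation.EqvGen.rel _ _ (M.fstep_same i b huv h3)
  rcases M.foldQ_i i b h _ _ hxy with h4 | ⟨h4, h5⟩
  · have := M.fold_exact_aux i b hstep h4
    rwa [hφ, hφ] at this
  · have hl : ∀ z : {x // x ≠ b}, (M.c i z = M.c i b ∨ M.c i z = M.cw i (M.e i b)) →
        Relation.EqvGen (M.FStep i b i) z (φ b) := by
      rintro z (h6 | h6)
      · have := M.fold_exact_aux i b hstep h6
        rwa [hφ] at this
      · have := M.fold_exact_aux i b hstep (h6.trans hc1.symm)
        rw [hφ, hφ ⟨_, n1⟩] at this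
        rw [hφb]
        exact this
    exact (hl x h4).trans _ _ _ (hl y h5).symm

/-- the new map -/
def fold [Finite B] (h : M.c i b ≠ M.cw i (M.e i b)) :
    PMap {x // x ≠ b} {w // w ≠ M.e i b} {v : V // v ≠ M.cw i (M.e i b)} where
  e := foldE M.e i b
  c := fun j x => M.foldQ i b h (M.c j x)
  step := by
    intro j x y hxy
    rw [← M.fold_cw i b h j (j + 1) (fne1 j), hxy, M.fold_cw i b h j (j + 2) (fne2 j)]
  exact := by
    intro j x y hxy
    by_cases hj : j = i
    · subst hj
      exact M.fold_exact_eq j b h hxy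
    · rcases M.foldQ_i i b h _ _ hxy with h1 | ⟨h1, _⟩
      · exact M.fold_exact_ne i b h hj h1
      · exfalso
        rcases h1 with h1 | h1
        · exact hj (M.cls _ _ _ _ h1)
        · exact hj (M.cls _ _ _ _ h1)
  cls := by
    intro j j' x y hxy
    rcases M.foldQ_i i b h _ _ hxy with h1 | ⟨h1, h2⟩
    · exact M.cls _ _ _ _ h1
    · have h3 : j = i := by
        rcases h1 with h1 | h1
        · exact M.cls _ _ _ _ h1
        · exact M.cls _ _ _ _ h1
      have h4 : j' = i := by
        rcases h2 with h2 | h2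
        · exact M.cls _ _ _ _ h2
        · exact M.cls _ _ _ _ h2
      rw [h3, h4]
  surj := by
    rintro ⟨v, hv⟩
    obtain ⟨j, x, hx⟩ := M.surj v
    by_cases hxb : x = b
    · subst hxb
      -- another black triangle at `v`
      by_cases hj : j = i
      · subst hj
        refine ⟨j, ⟨(M.e (j + 1)).symm (M.e j x), M.symm_ne_of_merge h (fne1 j)⟩, ?_⟩
        show M.foldQ j x h (M.c j ((M.e (j + 1)).symm (M.e j x))) = _
        rw [M.cw_symm j (j + 1) (fne1 j), M.foldQ_a, hx]
        apply Subtype.ext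
        rw [foldQ, dif_neg hv]
      · obtain ⟨k, hkj, hki⟩ := fthird j i
        refine ⟨j, ⟨(M.e k).symm (M.e i x), M.symm_ne_of_merge h hki⟩, ?_⟩
        show M.foldQ i x h (M.c j ((M.e k).symm (M.e i x))) = _
        rw [M.cw_symm j k hkj, M.cw_e j i (Ne.symm hj), hx]
        apply Subtype.ext
        rw [foldQ, dif_neg hv]
    · refine ⟨j, ⟨x, hxb⟩, ?_⟩
      show M.foldQ i b h (M.c j x) = _
      rw [hx]
      apply Subtype.ext
      rw [foldQ, dif_neg hv]

theorem fold_fold [Finite B] (h : M.c i b ≠ M.cw i (M.e i b)) :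
    Fold M (M.fold i b h) i b Subtype.val Subtype.val (M.foldQ i b h) where
  fi := Subtype.val_injective
  gi := Subtype.val_injective
  fr := by intro x; simp
  gr := by intro w; simp
  same := fun j a ha => foldE_same _ _ _ _ _ ha
  out := fun j a ha => foldE_out _ _ _ _ _ ha
  qc := fun _ _ => rfl
  qs := by
    rintro ⟨v, hv⟩
    refine ⟨v, ?_⟩
    apply Subtype.ext
    rw [foldQ, dif_neg hv]
  qa := M.foldQ_a i b h
  qi := M.foldQ_i i b h

end construct

end PMap

end Vale.Agent.P039.Bn
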