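import Vale.Agent.P039.Bn.Fold

/-! Lifting a Hamiltonian cycle along a fold; invariants. -/

namespace Vale.Agent.P039.Bn

variable {B W V B' W' V' : Type}

namespace PMap

variable {M : PMap B W V} {M' : PMap B' W' V'} {i : Fin 3} {b : B} {f : B' → B} {g : W' → W}
  {q : V → V'}

namespace Fold

theorem f_ne (R : Fold M M' i b f g q) (a : B') : f a ≠ b := (R.fr _).1 ⟨a, rfl⟩

theorem g_ne (R : Fold M M' i b f g q) (a : W') : g a ≠ M.e i b := (R.gr _).1 ⟨a, rfl⟩

theorem ex_f (R : Fold M M' i b f g q) {x : B} (h : x ≠ b) : ∃ a, f a = x := (R.fr x).2 h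

theorem ex_g (R : Fold M M' i b f g q) {x : W} (h : x ≠ M.e i b) : ∃ a, g a = x := (R.gr x).2 h

theorem q_cw_w (R : Fold M M' i b f g q) (j : Fin 3) : q (M.cw j (M.e i b)) = q (M.c j b) := by
  by_cases hj : j = i
  · subst hj; exact R.qa
  · rw [M.cw_e j i (Ne.symm hj)]

/-- vertices of the white triangles -/
theorem q_cw (R : Fold M M' i b f g q) (j : Fin 3) (w : W') : M'.cw j w = q (M.cw j (g w)) := by
  set a := (M'.e (j + 1)).symm w with ha
  have hw : M'.e (j + 1) a = w := by rw [ha, Equiv.apply_symm_apply]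
  have h1 : M'.cw j w = q (M.c j (f a)) := by rw [cw, ← ha, R.qc]
  rw [h1, ← hw]
  by_cases h2 : M.e (j + 1) (f a) = M.e i b
  · rw [R.out _ _ h2, M.cw_e j (j + 1) (fne1 j), ← M.cw_e j (j + 1) (fne1 j) (f a), h2, R.q_cw_w]
  · rw [R.same _ _ h2, M.cw_e j (j + 1) (fne1 j)]

theorem own (R : Fold M M' i b f g q) (a : B') : g (M'.e i a) = M.e i (f a) :=
  R.same _ _ fun h => R.f_ne a ((M.e i).injective h)

/-- the sides of `M'`, seen in `M` -/
theorem used_iff (R : Fold M M' i b f g q) (s : V' → Bool) (j : Fin 3) (a : B') :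
    M'.Used s j a ↔ M.Used (s ∘ q) j (f a) := by
  simp only [Used, R.qc, Function.comp]

/-- If the two vertices of the removed edge are on different sides, then the Hamiltonian cycle
lifts. -/
theorem lift (R : Fold M M' i b f g q) (hne : M.c i b ≠ M.cw i (M.e i b)) {s : V' → Bool}
    (hs : M'.Sol s)
    (hxy : s (q (M.c (i + 1) b)) ≠ s (q (M.c (i + 2) b))) : M.Sol (s ∘ q) := by
  have hu : M.Used (s ∘ q) i b := hxy
  have vb : ∀ x, ∃ j k, (s ∘ q) (M.c j x) ≠ (s ∘ q) (M.c k x) := by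
    intro x
    by_cases hx : x = b
    · subst hx; exact ⟨i + 1, i + 2, hxy⟩
    · obtain ⟨a, rfl⟩ := R.ex_f hx
      obtain ⟨j, k, hjk⟩ := hs.vb a
      rw [R.qc, R.qc] at hjk
      exact ⟨j, k, hjk⟩
  have vw : ∀ w, ∃ j k, (s ∘ q) (M.cw j w) ≠ (s ∘ q) (M.cw k w) := by
    intro w
    by_cases hw : w = M.e i b
    · subst hw
      refine ⟨i + 1, i + 2, ?_⟩
      simp only [Function.comp, R.q_cw_w]
      exact hxy
    · obtain ⟨a, rfl⟩ := R.ex_g hw
      obtain ⟨j, k, hjk⟩ := hs.vw a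
      rw [R.q_cw, R.q_cw] at hjk
      exact ⟨j, k, hjk⟩
  refine ⟨vb, vw, ?_⟩
  -- the relation
  set r : B ⊕ W → B ⊕ W → Prop := fun x y => ∃ i b, M.Used (s ∘ q) i b ∧ x = Sum.inl b ∧
    y = Sum.inr (M.e i b) with hr
  have hbw : Relation.EqvGen r (Sum.inl b) (Sum.inr (M.e i b)) :=
    Relation.EqvGen.rel _ _ ⟨i, b, hu, rfl, rfl⟩
  -- one used edge of `M'`
  have hedge : ∀ j a, M'.Used s j a →
      Relation.EqvGen r (Sum.inl (f a)) (Sum.inr (g (M'.e j a))) := by
    intro j a hja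
    have h1 := (R.used_iff s j a).1 hja
    by_cases h2 : M.e j (f a) = M.e i b
    · have h3 : Relation.EqvGen r (Sum.inl (f a)) (Sum.inr (M.e i b)) :=
        Relation.EqvGen.rel _ _ ⟨j, f a, h1, rfl, by rw [h2]⟩
      refine h3.trans _ _ _ (hbw.symm.trans _ _ _ ?_)
      rw [R.out _ _ h2]
      refine Relation.EqvGen.rel _ _ ⟨j, b, ?_, rfl, rfl⟩
      -- the colour `j` edge at `b` is used
      have h4 : ∀ k, k ≠ j → q (M.c k b) = q (M.c k (f a)) := by
        intro k hk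
        rw [← R.q_cw_w k, ← h2, M.cw_e k j (Ne.symm hk)]
      simp only [Used, Function.comp] at h1 ⊢
      rw [h4 _ (fne1 j), h4 _ (fne2 j)]
      exact h1
    · rw [R.same _ _ h2]
      exact Relation.EqvGen.rel _ _ ⟨j, f a, h1, rfl, rfl⟩
  -- all of `M'`
  have hall : ∀ x y : B' ⊕ W', Relation.EqvGen
      (fun x y => ∃ i b, M'.Used s i b ∧ x = Sum.inl b ∧ y = Sum.inr (M'.e i b)) x y →
      Relation.EqvGen r (Sum.map f g x) (Sum.map f g y) := by
    intro x y hxy
    induction hxy with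
    | rel x y hxy =>
      obtain ⟨j, a, hja, rfl, rfl⟩ := hxy
      exact hedge j a hja
    | refl x => exact Relation.EqvGen.refl _
    | symm x y _ ih => exact ih.symm
    | trans x y z _ _ ih1 ih2 => exact ih1.trans _ _ _ ih2
  have hall' : ∀ x y : B' ⊕ W', Relation.EqvGen r (Sum.map f g x) (Sum.map f g y) :=
    fun x y => hall x y (hs.conn x y)
  -- `b` is connected to the rest, if there is a rest
  have hb : ∀ z : B' ⊕ W', Relation.EqvGen r (Sum.inl b) (Sum.map f g z) := by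
    intro z
    -- another used edge at `b`
    obtain ⟨j, hj, hju⟩ : ∃ j, j ≠ i ∧ M.Used (s ∘ q) j b := by
      by_cases h1 : (s ∘ q) (M.c i b) = (s ∘ q) (M.c (i + 1) b)
      · refine ⟨i + 1, fne1 i, ?_⟩
        rw [Used, f11, f12, h1]
        exact Ne.symm hxy
      · refine ⟨i + 2, fne2 i, ?_⟩
        rw [Used, f21, f22]
        exact h1
    have h2 : Relation.EqvGen r (Sum.inl b) (Sum.inr (M.e j b)) :=
      Relation.EqvGen.rel _ _ ⟨j, b, hju, rfl, rfl⟩
    obtain ⟨w, hw⟩ := R.ex_g (M.ne_of_merge hne hj)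
    rw [← hw] at h2
    exact h2.trans _ _ _ (hall' (Sum.inr w) z)
  have hcase : ∀ x : B ⊕ W, (∃ z, x = Sum.map f g z) ∨ Relation.EqvGen r (Sum.inl b) x := by
    rintro (x | x)
    · by_cases hx : x = b
      · subst hx; exact Or.inr (Relation.EqvGen.refl _)
      · obtain ⟨a, rfl⟩ := R.ex_f hx
        exact Or.inl ⟨Sum.inl a, rfl⟩
    · by_cases hx : x = M.e i b
      · subst hx; exact Or.inr hbw
      · obtain ⟨a, rfl⟩ := R.ex_g hx
        exact Or.inl ⟨Sum.inr a, rfl⟩
  intro x y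
  rcases hcase x with ⟨z, rfl⟩ | hx
  · rcases hcase y with ⟨z', rfl⟩ | hy
    · exact hall' z z'
    · exact (hb z).symm.trans _ _ _ hy
  · rcases hcase y with ⟨z', rfl⟩ | hy
    · exact hx.symm.trans _ _ _ (hb z')
    · exact hx.symm.trans _ _ _ hy

/-- Every edge of `M` except the removed one is an edge of `M'`. -/
theorem ex_edge (R : Fold M M' i b f g q) (hne : M.c i b ≠ M.cw i (M.e i b)) (k : Fin 3) (x : B)
    (h : ¬ (k = i ∧ x = b)) : ∃ a : B', M'.c (k + 1) a = q (M.c (k + 1) x) ∧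
      M'.c (k + 2) a = q (M.c (k + 2) x) := by
  by_cases hx : x = b
  · subst hx
    have hk : k ≠ i := fun h1 => h ⟨h1, rfl⟩
    obtain ⟨a, ha⟩ := R.ex_f (M.symm_ne_of_merge hne hk)
    refine ⟨a, ?_, ?_⟩
    · rw [R.qc, ha, M.cw_symm (k + 1) k (Ne.symm (fne1 k)), R.q_cw_w]
    · rw [R.qc, ha, M.cw_symm (k + 2) k (Ne.symm (fne2 k)), R.q_cw_w]
  · obtain ⟨a, rfl⟩ := R.ex_f hx
    exact ⟨a, R.qc _ _, R.qc _ _⟩

/-- Arrows of `M'` are arrows of `M`. -/
theorem arr (R : Fold M M' i b f g q) (hne : M.c i b ≠ M.cw i (M.e i b)) {s : V' → Bool}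
    (hxy : s (q (M.c (i + 1) b)) ≠ s (q (M.c (i + 2) b))) {x : V} {C : Fin 3}
    (h : M'.Arr s (q x) C) : M.Arr (s ∘ q) x C := by
  intro j z hz hj
  subst hz
  obtain ⟨k, hkj, hkC⟩ := fthird j C
  -- the edge between `x` and its neighbour has colour `k`
  by_cases h1 : k = i ∧ z = b
  · obtain ⟨rfl, rfl⟩ := h1
    rcases fcase j k with rfl | rfl | rfl
    · exact absurd rfl hkj
    · rcases fcase C k with rfl | rfl | rfl
      · exact absurd rfl hkC
      · exact absurd rfl hj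
      · exact Ne.symm hxy
    · rcases fcase C k with rfl | rfl | rfl
      · exact absurd rfl hkC
      · exact hxy
      · exact absurd rfl hj
  · obtain ⟨a, ha1, ha2⟩ := R.ex_edge hne k z h1
    have h3 : ∀ l, l ≠ k → M'.c l a = q (M.c l z) := by
      intro l hl
      rcases fcase l k with rfl | rfl | rfl
      · exact absurd rfl hl
      · exact ha1
      · exact ha2
    have := h j a (h3 j hkj.symm) hj
    rw [h3 C hkC.symm] at this
    exact this

theorem card_B [Fintype B] [Fintype B'] (R : Fold M M' i b f g q) :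
    Fintype.card B' + 1 = Fintype.card B := by
  classical
  have h1 : Fintype.card B' = Fintype.card {x // x ≠ b} :=
    Fintype.card_congr (Equiv.ofBijective (fun a => (⟨f a, R.f_ne a⟩ : {x // x ≠ b}))
      ⟨fun a a' h => R.fi (congrArg Subtype.val h), fun x => by
        obtain ⟨a, ha⟩ := R.ex_f x.2
        exact ⟨a, Subtype.ext ha⟩⟩)
  rw [h1, Fintype.card_subtype_compl, Fintype.card_subtype_eq]
  have : 0 < Fintype.card B := Fintype.card_pos_iff.2 ⟨b⟩
  omega

theorem card_V [Fintype V] [Fintype V'] (R : Fold M M' i b f g q)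
    (hne : M.c i b ≠ M.cw i (M.e i b)) : Fintype.card V' + 1 = Fintype.card V := by
  classical
  have h1 : Fintype.card {v // v ≠ M.cw i (M.e i b)} = Fintype.card V' :=
    Fintype.card_congr (Equiv.ofBijective (fun v : {v // v ≠ M.cw i (M.e i b)} => q v.1)
      ⟨fun v v' h => by
        rcases R.qi _ _ h with h2 | ⟨h2 | h2, h3 | h3⟩
        · exact Subtype.ext h2
        · exact Subtype.ext (h2.trans h3.symm)
        · exact absurd h3 v'.2
        · exact absurd h2 v.2
        · exact absurd h2 v.2, fun v' => by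
        obtain ⟨v, rfl⟩ := R.qs v'
        by_cases hv : v = M.cw i (M.e i b)
        · exact ⟨⟨M.c i b, hne⟩, by rw [hv, R.qa]⟩
        · exact ⟨⟨v, hv⟩, rfl⟩⟩)
  rw [← h1, Fintype.card_subtype_compl, Fintype.card_subtype_eq]
  have : 0 < Fintype.card V := Fintype.card_pos_iff.2 ⟨M.c i b⟩
  omega

/-- Connectedness. -/
theorem conn (R : Fold M M' i b f g q) (hne : M.c i b ≠ M.cw i (M.e i b)) (hc : M.Conn) :
    M'.Conn := by
  classical
  obtain ⟨a₁, ha₁⟩ := R.ex_f (M.symm_ne_of_merge hne (fne1 i))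
  obtain ⟨a₂, ha₂⟩ := R.ex_f (M.symm_ne_of_merge hne (fne2 i))
  have h1 : ∀ l, l ≠ i + 1 → M'.c l a₁ = q (M.c l b) := by
    intro l hl
    rw [R.qc, ha₁, M.cw_symm l (i + 1) (Ne.symm hl), R.q_cw_w]
  have h2 : ∀ l, l ≠ i + 2 → M'.c l a₂ = q (M.c l b) := by
    intro l hl
    rw [R.qc, ha₂, M.cw_symm l (i + 2) (Ne.symm hl), R.q_cw_w]
  set r := fun x y : B' => ∃ j, M'.c j x = M'.c j y
  have h12 : Relation.EqvGen r a₁ a₂ :=
    Relation.EqvGen.rel _ _ ⟨i, by rw [h1 i (Ne.symm (fne1 i)), h2 i (Ne.symm (fne2 i))]⟩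
  set φ : B → B' := fun x => if hx : x = b then a₁ else (R.ex_f hx).choose with hφd
  have hφb : φ b = a₁ := by simp [hφd]
  have hφ : ∀ a, φ (f a) = a := by
    intro a
    rw [hφd]
    simp only [dif_neg (R.f_ne a)]
    exact R.fi (R.ex_f (R.f_ne a)).choose_spec
  -- `b` and a black triangle at a vertex of `b`
  have hb : ∀ j a, M'.c j a = q (M.c j b) → Relation.EqvGen r (φ b) a := by
    intro j a ha
    rw [hφb]
    by_cases hj : j = i + 1
    · refine h12.trans _ _ _ (Relation.EqvGen.rel _ _ ⟨j, ?_⟩)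
      rw [ha, h2 j (by rw [hj]; exact fne12 i)]
    · exact Relation.EqvGen.rel _ _ ⟨j, by rw [ha, h1 j hj]⟩
  have hstep : ∀ x y, (∃ j, M.c j x = M.c j y) → Relation.EqvGen r (φ x) (φ y) := by
    rintro x y ⟨j, hj⟩
    by_cases hx : x = b
    · subst hx
      by_cases hy : y = x
      · rw [hy]; exact Relation.EqvGen.refl _
      · obtain ⟨a, rfl⟩ := R.ex_f hy
        rw [hφ]
        exact hb j a (by rw [R.qc, hj])
    · obtain ⟨a, rfl⟩ := R.ex_f hx
      rw [hφ]
      by_cases hy : y = b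
      · subst hy
        exact (hb j a (by rw [R.qc, hj])).symm
      · obtain ⟨a', rfl⟩ := R.ex_f hy
        rw [hφ]
        exact Relation.EqvGen.rel _ _ ⟨j, by rw [R.qc, R.qc, hj]⟩
  have hall : ∀ x y, Relation.EqvGen (fun x y => ∃ j, M.c j x = M.c j y) x y →
      Relation.EqvGen r (φ x) (φ y) := by
    intro x y hxy
    induction hxy with
    | rel x y hxy => exact hstep x y hxy
    | refl x => exact Relation.EqvGen.refl _
    | symm x y _ ih => exact ih.symm
    | trans x y z _ _ ih1 ih2 => exact ih1.trans _ _ _ ih2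
  intro a a'
  have := hall (f a) (f a') (hc _ _)
  rwa [hφ, hφ] at this

/-- The sphere remains a sphere. -/
theorem sph [Fintype B] [Fintype B'] [Fintype V] [Fintype V'] (R : Fold M M' i b f g q)
    (hne : M.c i b ≠ M.cw i (M.e i b)) (hM : M.Sph) : M'.Sph := by
  refine ⟨R.conn hne hM.conn, ?_⟩
  have h1 := R.card_B
  have h2 := R.card_V hne
  have h3 := hM.card
  omega

/-- Adjacent vertices of `M'` come from adjacent vertices of `M`. -/
theorem adj_of (R : Fold M M' i b f g q) {x y : V'} (h : M'.Adj x y) :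
    ∃ x₀ y₀, q x₀ = x ∧ q y₀ = y ∧ M.Adj x₀ y₀ := by
  obtain ⟨k, l, a, hkl, rfl, rfl⟩ := h
  exact ⟨M.c k (f a), M.c l (f a), (R.qc _ _).symm, (R.qc _ _).symm, k, l, f a, hkl, rfl, rfl⟩

/-- Adjacent vertices of `M` other than the ends of the removed edge remain adjacent. -/
theorem adj (R : Fold M M' i b f g q) (hne : M.c i b ≠ M.cw i (M.e i b)) {x y : V}
    (h : M.Adj x y) (h1 : ¬ (x = M.c (i + 1) b ∧ y = M.c (i + 2) b))
    (h2 : ¬ (x = M.c (i + 2) b ∧ y = M.c (i + 1) b)) : M'.Adj (q x) (q y) := by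
  obtain ⟨k, l, z, hkl, rfl, rfl⟩ := h
  obtain ⟨m, hmk, hml⟩ := fthird k l
  have h3 : ¬ (m = i ∧ z = b) := by
    rintro ⟨rfl, rfl⟩
    rcases fcase k m with rfl | rfl | rfl
    · exact hmk rfl
    · rcases fcase l m with rfl | rfl | rfl
      · exact hml rfl
      · exact hkl rfl
      · exact h1 ⟨rfl, rfl⟩
    · rcases fcase l m with rfl | rfl | rfl
      · exact hml rfl
      · exact h2 ⟨rfl, rfl⟩
      · exact hkl rfl
  obtain ⟨a, ha1, ha2⟩ := R.ex_edge hne m z h3
  have h4 : ∀ l, l ≠ m → M'.c l a = q (M.c l z) := by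
    intro l hl
    rcases fcase l m with rfl | rfl | rfl
    · exact absurd rfl hl
    · exact ha1
    · exact ha2
  exact ⟨k, l, a, hkl, h4 k hmk.symm, h4 l hml.symm⟩

end Fold

end PMap

end Vale.Agent.P039.Bn
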